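import Mathlib

/-!
The variation algebra of the `L_p` Brunn-Minkowski method in dimension three: at a maximiser of
`R_τ` for a chamber cubic, `τ ≥ 1/2`.
-/

open Filter Finset
open scoped Topology

namespace Vale.Agent.P227.LP

variable {ι : Type*}

/-- A symmetric trilinear form: the third derivative of a cubic. -/
abbrev Tri (ι : Type*) := (ι → ℝ) →ₗ[ℝ] (ι → ℝ) →ₗ[ℝ] (ι → ℝ) →ₗ[ℝ] ℝ

/-- The quadratic form of a cubic with third derivative `T` at the point `h`, in the coordinate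
`φ = z / h`, minus the constraint: `R_τ`. -/
noncomputable def rForm (T : Tri ι) (τ : ℝ) (h φ : ι → ℝ) : ℝ :=
  T h (h * φ) (h * φ) + τ * (T h h (h * φ ^ 2) / 2)
    - (2 + τ) * (T h h (h * φ) / 2) ^ 2 / (T h h h / 2)

/-- Zero and nonpositive second order at an interior maximum, read from an expansion. -/
lemma second_le {f g : ℝ → ℝ} {a b : ℝ} (hg : ContinuousAt g 0)
    (he : ∀ᶠ t in 𝓝 0, f t = a * t + t ^ 2 * g t) (hb : g 0 = b)
    (hle : ∀ᶠ t in 𝓝 0, f t ≤ 0) : a = 0 ∧ b ≤ 0 := by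
  have h1 : ∀ᶠ t in 𝓝 (0 : ℝ), a * t + t ^ 2 * g t ≤ 0 := by
    filter_upwards [he, hle] with t h h' using h ▸ h'
  have ha : a = 0 := by
    have hc : Tendsto (fun t => a + t * g t) (𝓝 0) (𝓝 a) := by
      have : ContinuousAt (fun t => a + t * g t) 0 :=
        continuousAt_const.add (continuousAt_id.mul hg)
      simpa using this.tendsto
    apply le_antisymm
    · refine le_of_tendsto (hc.mono_left (nhdsWithin_le_nhds (s := Set.Ioi 0))) ?_
      filter_upwards [h1.filter_mono nhdsWithin_le_nhds, self_mem_nhdsWithin] with t ht (h0 : 0 < t)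
      exact nonpos_of_mul_nonpos_right (by nlinarith : t * (a + t * g t) ≤ 0) h0
    · refine ge_of_tendsto (hc.mono_left (nhdsWithin_le_nhds (s := Set.Iio 0))) ?_
      filter_upwards [h1.filter_mono nhdsWithin_le_nhds, self_mem_nhdsWithin] with t ht (h0 : t < 0)
      by_contra hh
      push Not at hh
      nlinarith [mul_pos_of_neg_of_neg h0 hh]
  refine ⟨ha, hb ▸ ?_⟩
  refine le_of_tendsto (hg.tendsto.mono_left (nhdsWithin_le_nhds (s := {0}ᶜ))) ?_
  filter_upwards [h1.filter_mono nhdsWithin_le_nhds, self_mem_nhdsWithin] with t ht (h0 : t ≠ 0)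
  have : 0 < t ^ 2 := by positivity
  rw [ha, zero_mul, zero_add] at ht
  nlinarith

/-- A second order expansion at `0` with continuous remainder. -/
def Exp (f : ℝ → ℝ) (a b c : ℝ) : Prop :=
  ∃ g : ℝ → ℝ, Continuous g ∧ g 0 = c ∧ ∀ t, f t = a + t * b + t ^ 2 * g t

/-- The same for vectors. -/
def VExp (F : ℝ → ι → ℝ) (a b c : ι → ℝ) : Prop :=
  ∃ g : ℝ → ι → ℝ, Continuous g ∧ g 0 = c ∧ ∀ t, F t = a + t • b + t ^ 2 • g t

lemma Exp.add {f f' : ℝ → ℝ} {a b c a' b' c' : ℝ} (h : Exp f a b c) (h' : Exp f' a' b' c') :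
    Exp (fun t => f t + f' t) (a + a') (b + b') (c + c') := by
  obtain ⟨g, hg, hg0, he⟩ := h
  obtain ⟨g', hg', hg0', he'⟩ := h'
  exact ⟨fun t => g t + g' t, hg.add hg', by simp [hg0, hg0'], fun t => by simp only [he, he']; ring⟩

lemma Exp.smul {f : ℝ → ℝ} {a b c : ℝ} (k : ℝ) (h : Exp f a b c) :
    Exp (fun t => k * f t) (k * a) (k * b) (k * c) := by
  obtain ⟨g, hg, hg0, he⟩ := h
  exact ⟨fun t => k * g t, continuous_const.mul hg, by simp [hg0], fun t => by simp only [he]; ring⟩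

lemma Exp.mul {f f' : ℝ → ℝ} {a b c a' b' c' : ℝ} (h : Exp f a b c) (h' : Exp f' a' b' c') :
    Exp (fun t => f t * f' t) (a * a') (a * b' + b * a') (a * c' + b * b' + c * a') := by
  obtain ⟨g, hg, hg0, he⟩ := h
  obtain ⟨g', hg', hg0', he'⟩ := h'
  refine ⟨fun t => a * g' t + b * b' + g t * a' + t * (b * g' t + g t * b') + t ^ 2 * (g t * g' t),
    by fun_prop, by simp [hg0, hg0'], fun t => by simp only [he, he']; ring⟩

lemma vexp_poly (a b c : ι → ℝ) : VExp (fun t => a + t • b + t ^ 2 • c) a b c :=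
  ⟨fun _ => c, continuous_const, rfl, fun _ => rfl⟩

lemma VExp.mul {F F' : ℝ → ι → ℝ} {a b c a' b' c' : ι → ℝ} (h : VExp F a b c)
    (h' : VExp F' a' b' c') :
    VExp (fun t => F t * F' t) (a * a') (a * b' + b * a') (a * c' + b * b' + c * a') := by
  obtain ⟨g, hg, hg0, he⟩ := h
  obtain ⟨g', hg', hg0', he'⟩ := h'
  refine ⟨fun t => a * g' t + b * b' + g t * a' + t • (b * g' t + g t * b')
      + t ^ 2 • (g t * g' t), by fun_prop, by simp [hg0, hg0'], fun t => ?_⟩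
  simp only [he, he']
  funext i
  simp only [Pi.mul_apply, Pi.add_apply, Pi.smul_apply, smul_eq_mul]
  ring

section Main

variable [Fintype ι]

@[fun_prop]
lemma continuous_tri (T : Tri ι) {X : Type*} [TopologicalSpace X] {A B C : X → ι → ℝ}
    (hA : Continuous A) (hB : Continuous B) (hC : Continuous C) :
    Continuous fun t => T (A t) (B t) (C t) := by
  classical
  have e : ∀ a b c, T a b c = ∑ k, ∑ j, ∑ i, c k * (b j * (a i *
      T (Pi.single i 1) (Pi.single j 1) (Pi.single k 1))) := by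
    intro a b c
    conv_lhs => rw [pi_eq_sum_univ' a, pi_eq_sum_univ' b, pi_eq_sum_univ' c]
    simp only [map_sum, map_smul, LinearMap.sum_apply, LinearMap.smul_apply, smul_eq_mul,
      Finset.mul_sum]
  rw [show (fun t => T (A t) (B t) (C t)) = _ from funext fun t => e (A t) (B t) (C t)]
  fun_prop

lemma exp_tri (T : Tri ι) {A B C : ℝ → ι → ℝ} {a a1 a2 b b1 b2 c c1 c2 : ι → ℝ}
    (hA : VExp A a a1 a2) (hB : VExp B b b1 b2) (hC : VExp C c c1 c2) :
    Exp (fun t => T (A t) (B t) (C t)) (T a b c) (T a1 b c + T a b1 c + T a b c1)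
      (T a2 b c + T a b2 c + T a b c2 + T a1 b1 c + T a1 b c1 + T a b1 c1) := by
  obtain ⟨g, hg, hg0, he⟩ := hA
  obtain ⟨p, hp, hp0, hpe⟩ := hB
  obtain ⟨q, hq, hq0, hqe⟩ := hC
  refine ⟨fun t => T (g t) b c + T a (p t) c + T a b (q t) + T a1 b1 c + T a1 b c1 + T a b1 c1
      + t * (T (g t) b1 c + T (g t) b c1 + T a1 (p t) c + T a (p t) c1 + T a1 b (q t) + T a b1 (q t)
        + T a1 b1 c1)
      + t ^ 2 * (T (g t) (p t) c + T (g t) b (q t) + T a (p t) (q t) + T (g t) b1 c1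
        + T a1 (p t) c1 + T a1 b1 (q t))
      + t ^ 3 * (T (g t) (p t) c1 + T (g t) b1 (q t) + T a1 (p t) (q t))
      + t ^ 4 * T (g t) (p t) (q t), ?_, by simp [hg0, hp0, hq0], fun t => ?_⟩
  · fun_prop (disch := assumption)
  · simp only [he, hpe, hqe, map_add, map_smul, LinearMap.add_apply, LinearMap.smul_apply,
      smul_eq_mul]
    ring

/-- First and second variation along `1 + t h₁ + t² h₂`, `φ + t η`. -/
lemma variations (T : Tri ι) (s1 : ∀ a b c, T a b c = T b a c) (s2 : ∀ a b c, T a b c = T a c b)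
    (hM : 0 < T 1 1 1) {τ : ℝ} {φ : ι → ℝ} (hφ : T 1 1 φ = 0) (hzero : rForm T τ 1 φ = 0)
    {h1 h2 η : ι → ℝ} {r : ℝ → ℝ} (hr : ContinuousAt r 0) (hr0 : r 0 = 0)
    (hev : ∀ᶠ t in 𝓝 0,
      rForm T τ (1 + t • h1 + t ^ 2 • h2) (φ + t • η + t ^ 2 • 0) ≤ t ^ 2 * r t) :
    (T h1 φ φ + 2 * T 1 φ (h1 * φ + η)
        + τ * (T 1 h1 (φ ^ 2) + T 1 1 (h1 * φ ^ 2 + 2 * (φ * η)) / 2) = 0) ∧
      T h2 φ φ + 2 * T 1 φ (h2 * φ + h1 * η) + T 1 (h1 * φ + η) (h1 * φ + η)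
          + 2 * T h1 φ (h1 * φ + η)
        + τ * (T 1 h2 (φ ^ 2) + T h1 h1 (φ ^ 2) / 2 + T 1 h1 (h1 * φ ^ 2 + 2 * (φ * η))
          + T 1 1 (h2 * φ ^ 2 + 2 * (h1 * (φ * η)) + η ^ 2) / 2)
        - (2 + τ) * (T 1 h1 φ + T 1 1 (h1 * φ + η) / 2) ^ 2 / (T 1 1 1 / 2) ≤ 0 := by
  set u := φ ^ 2 with hu
  set M := T 1 1 1 / 2 with hMd
  have hM0 : 0 < M := by positivity
  have H := vexp_poly (1 : ι → ℝ) h1 h2
  have P := vexp_poly φ η 0
  have z := VExp.mul H P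
  have w := VExp.mul z P
  have eM := Exp.smul (1 / 2) (exp_tri T H H H)
  have eA := exp_tri T H z z
  have eW := Exp.smul (τ / 2) (exp_tri T H H w)
  have eL := Exp.smul (1 / 2) (exp_tri T H H z)
  obtain ⟨g, hg, hg0, he⟩ :=
    Exp.add (Exp.mul eM (Exp.add eA eW)) (Exp.smul (-(2 + τ)) (Exp.mul eL eL))
  have hcont : Continuous fun t : ℝ => (1 : ι → ℝ) + t • h1 + t ^ 2 • h2 := by fun_prop
  have hpos : ∀ᶠ t in 𝓝 (0 : ℝ), 0 < T (1 + t • h1 + t ^ 2 • h2) (1 + t • h1 + t ^ 2 • h2)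
      (1 + t • h1 + t ^ 2 • h2) :=
    (continuous_tri T hcont hcont hcont).tendsto' 0 _ (by simp) |>.eventually (lt_mem_nhds hM)
  set F : ℝ → ℝ := fun t => 1 / 2 * T (1 + t • h1 + t ^ 2 • h2) (1 + t • h1 + t ^ 2 • h2)
      (1 + t • h1 + t ^ 2 • h2) * rForm T τ (1 + t • h1 + t ^ 2 • h2) (φ + t • η + t ^ 2 • 0)
    with hF
  have hle : ∀ᶠ t in 𝓝 (0 : ℝ), F t - t ^ 2 * (1 / 2 * T (1 + t • h1 + t ^ 2 • h2)
      (1 + t • h1 + t ^ 2 • h2) (1 + t • h1 + t ^ 2 • h2) * r t) ≤ 0 := by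
    filter_upwards [hev, hpos] with t h h'
    simp only [hF]
    nlinarith [mul_le_mul_of_nonneg_left h h'.le]
  have hzero' : T 1 φ φ + τ / 2 * T 1 1 u = 0 := by
    have := hzero
    simp only [rForm, one_mul, hφ, zero_div, ne_eq, OfNat.ofNat_ne_zero, not_false_eq_true,
      zero_pow, mul_zero, zero_div, sub_zero, ← hu] at this
    linarith
  have eu : φ * φ = u := by rw [hu, sq]
  have hFe : ∀ᶠ t in 𝓝 (0 : ℝ), F t = (fun t => 1 / 2 * T (1 + t • h1 + t ^ 2 • h2)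
      (1 + t • h1 + t ^ 2 • h2) (1 + t • h1 + t ^ 2 • h2) *
      (T (1 + t • h1 + t ^ 2 • h2) ((1 + t • h1 + t ^ 2 • h2) * (φ + t • η + t ^ 2 • 0))
        ((1 + t • h1 + t ^ 2 • h2) * (φ + t • η + t ^ 2 • 0)) + τ / 2 *
      T (1 + t • h1 + t ^ 2 • h2) (1 + t • h1 + t ^ 2 • h2)
        ((1 + t • h1 + t ^ 2 • h2) * (φ + t • η + t ^ 2 • 0) * (φ + t • η + t ^ 2 • 0))) +
      -(2 + τ) * (1 / 2 * T (1 + t • h1 + t ^ 2 • h2) (1 + t • h1 + t ^ 2 • h2)
          ((1 + t • h1 + t ^ 2 • h2) * (φ + t • η + t ^ 2 • 0)) *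
        (1 / 2 * T (1 + t • h1 + t ^ 2 • h2) (1 + t • h1 + t ^ 2 • h2)
          ((1 + t • h1 + t ^ 2 • h2) * (φ + t • η + t ^ 2 • 0))))) t := by
    filter_upwards [hpos] with t h'
    simp only [hF, rForm, pow_two (φ + t • η + t ^ 2 • (0 : ι → ℝ)), ← mul_assoc]
    field_simp
    ring
  simp only [one_mul, mul_zero, add_zero, eu, hφ, hzero', zero_mul, zero_add] at he hg0
  have hh := second_le (g := fun t => g t - 1 / 2 * T (1 + t • h1 + t ^ 2 • h2)
      (1 + t • h1 + t ^ 2 • h2) (1 + t • h1 + t ^ 2 • h2) * r t)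
    (hg.continuousAt.sub ((continuousAt_const.mul
      (continuous_tri T hcont hcont hcont).continuousAt).mul hr))
    (hFe.mono fun t ht => by
      rw [ht, mul_sub, ← add_sub_assoc]
      exact congrArg (· - _) ((he t).trans (congrArg (· + _) (mul_comm _ _))))
    (by simp only [hr0, mul_zero, sub_zero]; exact hg0) hle
  obtain ⟨k1, k2⟩ := hh
  have hne : (1 / 2 * T 1 1 1) ≠ 0 := by positivity
  have k1' := (mul_eq_zero.1 k1).resolve_left hne
  rw [k1', mul_zero, add_zero] at k2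
  have a1 : h1 * φ + η = η + h1 * φ := add_comm _ _
  have w1 : φ * η + (η + h1 * φ) * φ = h1 * u + 2 * (φ * η) := by rw [← eu]; ring
  have a2 : h2 * φ + h1 * η = h1 * η + h2 * φ := add_comm _ _
  have w2 : (η + h1 * φ) * η + (h1 * η + h2 * φ) * φ
      = h2 * u + 2 * (h1 * (φ * η)) + η ^ 2 := by rw [← eu]; ring
  rw [w1] at k1' k2
  rw [w2] at k2
  rw [a1, a2]
  refine ⟨?_, ?_⟩
  · linear_combination k1' - s2 1 (η + h1 * φ) φ - τ / 2 * s1 h1 1 u
  · rw [s2 1 (h1 * η + h2 * φ) φ, s2 h1 (η + h1 * φ) φ, s1 h1 1 φ,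
      s1 h2 1 u, s1 h1 1 (h1 * u + 2 * (φ * η))] at k2
    refine nonpos_of_mul_nonpos_right ?_ hM0
    calc _ = _ := by rw [hMd]; field_simp; ring
      _ ≤ 0 := k2

/-- At an interior zero maximum of `R_τ` with `τ > 0` and nonnegative facet weights, `τ ≥ 1/2`. -/
theorem half_le_of_paths (T : Tri ι) (s1 : ∀ a b c, T a b c = T b a c)
    (s2 : ∀ a b c, T a b c = T a c b) (hmu : ∀ f : ι → ℝ, 0 ≤ T 1 1 (f ^ 2))
    (hM : 0 < T 1 1 1) {τ : ℝ} (hτ : 0 < τ) {φ : ι → ℝ} (hφ : T 1 1 φ = 0)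
    (hZ : 0 < T 1 1 (φ ^ 2)) (hzero : rForm T τ 1 φ = 0)
    (hR0 : ∀ ψ : ι → ℝ, rForm T τ 1 ψ ≤ 0)
    (hpath : ∀ h1 h2 η : ι → ℝ, ∃ r : ℝ → ℝ, ContinuousAt r 0 ∧ r 0 = 0 ∧ ∀ᶠ t in 𝓝 0,
      rForm T τ (1 + t • h1 + t ^ 2 • h2) (φ + t • η + t ^ 2 • 0) ≤ t ^ 2 * r t) :
    1 / 2 ≤ τ := by
  set u := φ ^ 2 with hu
  set M := T 1 1 1 / 2 with hMd
  have hM0 : 0 < M := by positivity
  -- the general second order statement along `h = 1 + t h₁ + t² h₂`, `φ + t η`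
  have key := fun h1 h2 η =>
    variations T s1 s2 hM hφ hzero (h1 := h1) (h2 := h2) (η := η)
      (hpath h1 h2 η).choose_spec.1 (hpath h1 h2 η).choose_spec.2.1
      (hpath h1 h2 η).choose_spec.2.2
  -- the two first order conditions
  have A1 : ∀ f : ι → ℝ, 2 * T 1 φ f + τ * T 1 1 (φ * f) = 0 := by
    intro f
    have := (key 0 0 f).1
    simp only [map_zero, LinearMap.zero_apply, zero_mul, zero_add] at this
    rw [two_mul (φ * f), map_add] at this
    linarith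
  have A2 : ∀ f : ι → ℝ, T φ φ f + τ * (T 1 f u - T 1 1 (f * u) / 2) = 0 := by
    intro f
    have := (key f 0 (-(f * φ))).1
    simp only [add_neg_cancel, map_zero, mul_zero, add_zero] at this
    rw [show f * u + 2 * (φ * -(f * φ)) = -(f * u) by rw [hu]; ring, map_neg,
      s1 f φ φ, s2 φ f φ] at this
    linarith
  set Q := T 1 u u with hQ
  set U := T 1 1 (u * u) / 2 with hU
  set Z := T 1 1 u / 2 with hZd
  have hZ0 : 0 < Z := by positivity
  -- testing with `ψ = u`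
  have hR : Q + τ * U - (2 + τ) * Z ^ 2 / M ≤ 0 := by
    have := hR0 u
    simpa [rForm, sq u, hQ, hU, hZd, hMd] using this
  -- the second variation
  have h2nd : τ * U * (1 + 1.5 * τ - τ ^ 2) ≤ 1.5 * τ ^ 2 * Q := by
    have := (key φ ((1 / 2 : ℝ) • u) ((τ - 1) • u)).2
    have b1 : φ * φ + (τ - 1) • u = τ • u := by
      rw [hu]; funext i; simp only [Pi.add_apply, Pi.mul_apply, Pi.smul_apply, Pi.pow_apply,
        smul_eq_mul]; ring
    have b2 : (1 / 2 : ℝ) • u * φ + φ * (τ - 1) • u = (τ - 1 / 2) • (φ * u) := by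
      funext i; simp only [Pi.add_apply, Pi.mul_apply, Pi.smul_apply, smul_eq_mul]; ring
    have b3 : φ * u + 2 * (φ * (τ - 1) • u) = (2 * τ - 1) • (φ * u) := by
      funext i; simp only [Pi.add_apply, Pi.mul_apply, Pi.smul_apply, smul_eq_mul,
        Pi.ofNat_apply]; ring
    have b4 : (1 / 2 : ℝ) • u * u + 2 * (φ * (φ * (τ - 1) • u)) + ((τ - 1) • u) ^ 2
        = (τ ^ 2 - 1 / 2) • (u * u) := by
      funext i; simp only [hu, Pi.add_apply, Pi.mul_apply, Pi.smul_apply, smul_eq_mul,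
        Pi.pow_apply, Pi.ofNat_apply]; ring
    rw [b1, b2, b3, b4] at this
    simp only [map_smul, LinearMap.smul_apply, smul_eq_mul] at this
    have c1 : T u φ φ = T φ φ u := by rw [s1, s2]
    have c2 := A2 u
    have c3 := A1 (φ * u)
    rw [show φ * (φ * u) = u * u by rw [hu]; ring] at c3
    have c4 : T 1 φ φ + τ * Z = 0 := by
      have := A1 φ
      rw [show φ * φ = u by rw [hu, sq]] at this
      rw [hZd]; linarith
    have c5 : T 1 φ φ + τ * T 1 1 u / 2 = 0 := by rw [hZd] at c4; linarith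
    rw [c1, show T 1 φ φ + τ * T 1 1 u / 2 = 0 from c5] at this
    simp only [ne_eq, OfNat.ofNat_ne_zero, not_false_eq_true, zero_pow, mul_zero, zero_div,
      sub_zero] at this
    have d1 : T φ φ u = τ * (U - Q) := by rw [hU, hQ]; linarith
    have d2 : T 1 φ (φ * u) = -τ * U := by rw [hU]; linarith
    rw [d1, d2, ← hQ] at this
    nlinarith [this, hU]
  -- Cauchy-Schwarz
  have hC : Z ^ 2 / M ≤ U := by
    have h0 := hmu (u - (Z / M) • 1)
    have e : (u - (Z / M) • (1 : ι → ℝ)) ^ 2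
        = u * u - (2 * (Z / M)) • u + (Z / M) ^ 2 • (1 : ι → ℝ) := by
      funext i; simp only [Pi.add_apply, Pi.sub_apply, Pi.mul_apply, Pi.smul_apply, smul_eq_mul,
        Pi.pow_apply, Pi.one_apply]; ring
    rw [e, map_add, map_sub, map_smul, map_smul, smul_eq_mul, smul_eq_mul] at h0
    have e1 : T 1 1 u = 2 * Z := by rw [hZd]; ring
    have e2 : T 1 1 1 = 2 * M := by rw [hMd]; ring
    have e3 : T 1 1 (u * u) = 2 * U := by rw [hU]; ring
    rw [e1, e2, e3] at h0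
    have : (Z / M) ^ 2 * M = Z ^ 2 / M := by field_simp
    have : Z / M * Z = Z ^ 2 / M := by ring
    nlinarith
  have hq : 0 < Z ^ 2 / M := by positivity
  have step : (1 + τ) * U ≤ 3 * τ * (Z ^ 2 / M) := by
    have : τ * ((1 + τ) * (2 + τ) * U) ≤ τ * ((2 + τ) * (3 * τ * (Z ^ 2 / M))) := by
      linear_combination 2 * h2nd + 3 * τ ^ 2 * hR
    have := le_of_mul_le_mul_left this hτ
    exact le_of_mul_le_mul_left (by linarith) (by positivity : (0 : ℝ) < 2 + τ)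
  nlinarith [mul_le_mul_of_nonneg_left hC (by positivity : 0 ≤ 1 + τ)]

omit [Fintype ι] in
/-- The form read in the coordinates `a ↦ h * a` around the base point `h`. -/
noncomputable def scaled (T : Tri ι) (h : ι → ℝ) : Tri ι :=
  ((T.compl₁₂ (LinearMap.mulLeft ℝ h) (LinearMap.mulLeft ℝ h)).compr₂
    (LinearMap.lcomp ℝ ℝ (LinearMap.mulLeft ℝ h)))

omit [Fintype ι] in
@[simp]
lemma scaled_apply (T : Tri ι) (h a b c : ι → ℝ) :
    scaled T h a b c = T (h * a) (h * b) (h * c) := rfl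

omit [Fintype ι] in
lemma rForm_scaled (T : Tri ι) (τ : ℝ) (h g φ : ι → ℝ) :
    rForm (scaled T h) τ g φ = rForm T τ (h * g) φ := by
  simp only [rForm, scaled_apply, ← mul_assoc]

/-- `half_le_of_paths` at an arbitrary base point: nonpositivity is only needed up to `o(t²)`
along the curves `h * (1 + t h₁ + t² h₂)`, `φ + t η`. -/
theorem half_le_of_paths_at (T : Tri ι) (s1 : ∀ a b c, T a b c = T b a c)
    (s2 : ∀ a b c, T a b c = T a c b) {h : ι → ℝ}
    (hmu : ∀ f : ι → ℝ, 0 ≤ T h h (h * f ^ 2)) (hM : 0 < T h h h) {τ : ℝ} (hτ : 0 < τ)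
    {φ : ι → ℝ} (hφ : T h h (h * φ) = 0) (hZ : 0 < T h h (h * φ ^ 2))
    (hzero : rForm T τ h φ = 0) (hR0 : ∀ ψ : ι → ℝ, rForm T τ h ψ ≤ 0)
    (hpath : ∀ h1 h2 η : ι → ℝ, ∃ r : ℝ → ℝ, ContinuousAt r 0 ∧ r 0 = 0 ∧ ∀ᶠ t in 𝓝 0,
      rForm T τ (h * (1 + t • h1 + t ^ 2 • h2)) (φ + t • η + t ^ 2 • 0) ≤ t ^ 2 * r t) :
    1 / 2 ≤ τ := by
  refine half_le_of_paths (scaled T h) (fun a b c => ?_) (fun a b c => ?_) (fun f => ?_) ?_ hτ
    (φ := φ) ?_ ?_ ?_ (fun ψ => ?_) (fun h1 h2 η => ?_)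
  · simpa using s1 (h * a) (h * b) (h * c)
  · simpa using s2 (h * a) (h * b) (h * c)
  · simpa using hmu f
  · simpa using hM
  · simpa using hφ
  · simpa using hZ
  · simpa [rForm_scaled] using hzero
  · simpa [rForm_scaled] using hR0 ψ
  · simpa only [rForm_scaled] using hpath h1 h2 η

/-- The case of a genuine local maximum of `R_τ`. -/
theorem half_le_of_max_at (T : Tri ι) (s1 : ∀ a b c, T a b c = T b a c)
    (s2 : ∀ a b c, T a b c = T a c b) {h : ι → ℝ}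
    (hmu : ∀ f : ι → ℝ, 0 ≤ T h h (h * f ^ 2)) (hM : 0 < T h h h) {τ : ℝ} (hτ : 0 < τ)
    {φ : ι → ℝ} (hφ : T h h (h * φ) = 0) (hZ : 0 < T h h (h * φ ^ 2))
    (hzero : rForm T τ h φ = 0)
    (hmax : ∀ᶠ g in 𝓝 h, ∀ ψ : ι → ℝ, rForm T τ g ψ ≤ 0) : 1 / 2 ≤ τ := by
  refine half_le_of_paths_at T s1 s2 hmu hM hτ hφ hZ hzero hmax.self_of_nhds
    fun h1 h2 η => ⟨fun _ => 0, continuousAt_const, rfl, ?_⟩
  have : Tendsto (fun t : ℝ => h * (1 + t • h1 + t ^ 2 • h2)) (𝓝 0) (𝓝 h) :=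
    (by fun_prop : Continuous fun t : ℝ => h * (1 + t • h1 + t ^ 2 • h2)).tendsto' 0 h (by simp)
  filter_upwards [this.eventually hmax] with t ht
  simpa using ht (φ + t • η + t ^ 2 • 0)

end Main

end Vale.Agent.P227.LP
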